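import Vale.Agent.P098.Reg.Assemble
import Vale.Agent.P098.Exact.D3.Cert
import Vale.Agent.P098.Exact.D4.Cert
import Vale.Agent.P098.Exact.D5.Cert
import Vale.Agent.P098.Exact.Sos.InteriorTable
import Vale.Agent.P098.Reg.High.Main
import Vale.Agent.P098.Reg.AuditMin

/-! P098: in dimensions one to five every one-homogeneous global minimiser is flat. -/

noncomputable section

namespace Vale.Agent.Results.P098.NoSingularCones5

open MeasureTheory Vale.Agent.P098 Vale.Agent.P098.Reg

theorem result : ∀ d : ℕ, 1 ≤ d → d ≤ 5 →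
    (∀ u : EuclideanSpace ℝ (Fin d) → ℝ, IsGlobalMin u → OneHom u → IsFlatAE u) ∧
      ∀ e : EuclideanSpace ℝ (Fin d), ‖e‖ = 1 → IsGlobalMin (hp e) ∧ OneHom (hp e) := by
  intro d hd hd5
  refine ⟨?_, fun e he => ⟨hp_globalMin e he, (hp_classes e).2.1⟩⟩
  refine target_of_high 5 High.highReg (fun n hn hn5 => ?_) d hd hd5
  interval_cases n
  · exact ⟨Exact.D3.cert⟩
  · exact ⟨Exact.D4.certOf Exact.Sos.delta5 Exact.Sos.delta5_pos Exact.Sos.interior_table⟩
  · exact ⟨Exact.D5.certOf Exact.Sos.delta5 Exact.Sos.delta5_pos Exact.Sos.interior_table⟩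

end Vale.Agent.Results.P098.NoSingularCones5
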